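import Vale.Agent.P075.Bound

/-!
# P075, question Q2: the dyadic triangular Hilbert transform is bounded at `(3,3,3)`
-/

namespace Vale.Agent.Results.P075.DyadicBounded

open MeasureTheory Vale.Agent.P075

theorem result :
    ∃ C : ℝ, ∀ (S : Finset ℤ) (ε : ℤ → ℝ), (∀ k ∈ S, |ε k| ≤ 1) →
      ∀ F : Fin 3 → ℝ × ℝ → ℝ, (∀ v, Measurable (F v)) → (∀ v, ∃ K : ℝ, ∀ p, |F v p| ≤ K) →
        (∀ v, HasCompactSupport (F v)) →
        |dyadicForm S ε F| ≤
          C * ∏ v, (∫ x in Set.Ici (0 : ℝ) ×ˢ Set.Ici (0 : ℝ), |F v x| ^ 3) ^ (1 / 3 : ℝ) := by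
  refine ⟨36, fun S ε hε F hF hb hc => ?_⟩
  choose K hK using hb
  have hball : ∀ v, ∃ R : ℝ, tsupport (F v) ⊆ Metric.closedBall 0 R := fun v =>
    (hc v).isBounded.subset_closedBall 0
  choose R hR using hball
  refine dyadic_bound S ε hε F hF (∑ v, |K v|) (fun v p => ?_) (∑ v, |R v|) (fun v p hp => ?_)
  · exact ((hK v p).trans (le_abs_self _)).trans
      (Finset.single_le_sum (fun i _ => abs_nonneg (K i)) (Finset.mem_univ v))
  · by_contra hne
    have h1 := hR v (subset_tsupport _ hne)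
    rw [Metric.mem_closedBall, dist_zero_right, Prod.norm_def, max_le_iff, Real.norm_eq_abs,
      Real.norm_eq_abs] at h1
    have h2 := Finset.single_le_sum (fun i _ => abs_nonneg (R i)) (Finset.mem_univ v)
    have h3 : R v ≤ |R v| := le_abs_self _
    rcases hp with hp | hp <;> linarith [le_abs_self p.1, le_abs_self p.2]

end Vale.Agent.Results.P075.DyadicBounded
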